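import Vale.Agent.P011IR.IF

/-!
The centraliser of the torus in a pinned group is diagonal.
-/

set_option autoImplicit false
set_option linter.all false

namespace Vale.Agent.P011IH

open Matrix Vale.Agent.P183CH Vale.Agent.P092GP Vale.Agent.P011IR

variable {k G : Type} [Field k] [Group G] (L : LD k G)

/-- the elements which act by scalars on the weight spaces -/
def sc : Subgroup G where
  carrier := {g | ∃ d : L.R.Q → k, L.ρ g = diagonal fun a => d (L.wt a)}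
  one_mem' := ⟨1, by simp⟩
  mul_mem' := fun ⟨d, a⟩ ⟨d', b⟩ => ⟨d * d', by rw [map_mul, a, b, diagonal_mul_diagonal]; rfl⟩
  inv_mem' := fun {g} ⟨d, e⟩ => ⟨d⁻¹, by
    have c : diagonal (fun a => d (L.wt a)) * L.ρ g⁻¹ = 1 := by
      rw [← e, ← map_mul, mul_inv_cancel, map_one]
    ext a b
    have h1 := congrFun₂ c a a
    have h2 := congrFun₂ c a b
    rw [diagonal_mul, one_apply_eq] at h1
    rw [diagonal_mul] at h2
    rw [← mul_right_inj' (left_ne_zero_of_mul_eq_one h1), h2]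
    by_cases f : a = b
    · subst f
      simp [left_ne_zero_of_mul_eq_one h1]
    · simp [f]⟩

theorem cen : CEN := fun k G _ _ _ L S x y h P g hg e => by
  have H := P.ok
  have n0 : (L.N : ℤ) ≠ 0 := Int.natCast_ne_zero.2 H.npos.ne'
  have t1 : ∀ i u, h i u ∈ sc L := fun i u => ⟨fun q => ((u ^ (L.R.pr q i / L.N) : kˣ) : k), by
    simp only [P.hh, ← P.mu, Int.mul_ediv_cancel_left _ n0]
    rfl⟩
  have t2 : ∀ i, ∀ u ∈ L.X (L.R.α i), u ≠ 1 → ∀ v ∈ L.X (-L.R.α i), ∀ v' ∈ L.X (-L.R.α i),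
      L.Rep (v * u * v') (L.R.sE i) → v * u * v' * (y i (-1) * x i 1 * y i (-1))⁻¹ ∈ sc L :=
    fun i u a b v c v' d f => by
      obtain ⟨t, rfl⟩ := ((P.cx i).mem u).1 a
      obtain ⟨s, rfl⟩ := ((P.cy i).mem v).1 c
      obtain ⟨s', rfl⟩ := ((P.cy i).mem v').1 d
      obtain ⟨t, rfl⟩ := IsUnit.mk0 t fun c => b (c ▸ left_eq_mul.1
        ((congrArg (x i) (add_zero 0)).symm.trans ((P.cx i).add 0 0)))
      obtain ⟨rfl, rfl⟩ := P.un i _ _ _ _ _ f (P.wl i t).1
      rw [(P.wl i t).2, mul_inv_cancel_right]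
      exact t1 i t
  obtain ⟨d, hd⟩ := H.GJ_inf_Z0 (J := Set.univ) (T := sc L)
    (fun z ⟨d, a⟩ => LD.mem_Z0.2 fun p q c => a ▸ diagonal_apply_ne _ fun f => c (f ▸ rfl))
    (fun j _ t ⟨d, a⟩ => ⟨fun q => d ((L.R.sE j)⁻¹ q), by
      have : L.ρ (L.nn j) * L.ρ t =
          diagonal (fun a => d ((L.R.sE j)⁻¹ (L.wt a))) * L.ρ (L.nn j) := by
        ext p q
        rw [a, mul_diagonal, diagonal_mul, mul_comm]
        by_cases c : L.ρ (L.nn j) p q = 0
        · simp [c]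
        · rw [ty_iff.1 (H.rep_nn j) p q c, RS.inv_app]
      rw [map_mul, map_mul, this, Matrix.mul_assoc, ← map_mul, mul_inv_cancel, map_one,
        Matrix.mul_one]⟩)
    (fun j _ u a b v c v' d f => by
      obtain ⟨u0, a0, b0, v0, c0, v1, d0, e0, f0⟩ := H.nn_spec j
      have := mul_mem (t2 j u a b v c v' d f) (inv_mem (t2 j u0 a0 b0 v0 c0 v1 d0 (e0 ▸ f0)))
      rwa [← e0, _root_.mul_inv_rev (L.nn j), inv_inv, ← mul_assoc, inv_mul_cancel_right] at this)
    ⟨H.GJ_univ ▸ hg, LD.mem_Z0.2 fun a b c => not_not.1 fun f => c (H.root.pr_inj (funext fun i => by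
      rw [← P.mu, ← P.mu]
      exact congrArg _ (congrFun (e a b f) i)))⟩
  exact fun a b c => hd ▸ diagonal_apply_ne _ c

end Vale.Agent.P011IH
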