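import Vale.Agent.P011UI.Ldu
import Mathlib.Algebra.Polynomial.Roots

/-!
The big cell of a group generated by groups of rank one is dense.
-/

set_option autoImplicit false
set_option linter.all false

namespace Vale.Agent.P011IH

open Subgroup

variable {K H : Type} [Field K] [Group H] {ι : Type}

/-- groups generated by rank one data -/
structure Gn (x y : ι → K → H) (T : Subgroup H) : Prop where
  xa : ∀ i t, (x i t)⁻¹ = x i (-t)
  ya : ∀ i t, (y i t)⁻¹ = y i (-t)
  cm : ∀ i j, i ≠ j → ∀ t s, x i t * y j s = y j s * x i t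
  sl : ∀ i t s, 1 + t * s ≠ 0 → ∃ s', ∃ τ ∈ T, ∃ t', x i t * y i s = y i s' * τ * x i t'
  tx : ∀ τ ∈ T, ∀ i t, ∃ t', x i t * τ = τ * x i t'
  ty : ∀ τ ∈ T, ∀ i t, ∃ t', τ * y i t = y i t' * τ

/-- the group generated by one parameter groups -/
def Sp (x : ι → K → H) : Subgroup H := closure {g | ∃ i t, g = x i t}

variable {x y : ι → K → H} {T : Subgroup H}

theorem mem_Sp (i : ι) (t : K) : x i t ∈ Sp x := subset_closure ⟨i, t, rfl⟩

theorem Sp_ind (h : ∀ i t, (x i t)⁻¹ = x i (-t)) {P : H → Prop} (h1 : P 1)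
    (h2 : ∀ i t g, P g → P (x i t * g)) {g : H} (hg : g ∈ Sp x) : P g := by
  induction hg using closure_induction_left with
  | one => exact h1
  | mul_left a ha b _ ih => obtain ⟨i, t, rfl⟩ := ha; exact h2 i t b ih
  | inv_mul_cancel a ha b _ ih => obtain ⟨i, t, rfl⟩ := ha; exact h i t ▸ h2 i _ b ih

theorem Gn.dense [Infinite K] (h : Gn x y T) (F : Set (H → K))
    (hl : ∀ f ∈ F, ∀ z, (fun g => f (z * g)) ∈ F)
    (hp : ∀ f ∈ F, ∀ i g, ∃ p : Polynomial K, ∀ t, f (x i t * g) = p.eval t) {f : H → K}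
    (hf : f ∈ F) (h0 : ∀ v ∈ Sp y, ∀ τ ∈ T, ∀ u ∈ Sp x, f (v * τ * u) = 0) {g : H}
    (hg : g ∈ closure {g | ∃ i t, g = x i t ∨ g = y i t}) : f g = 0 := by
  let Z : H → Prop := fun g => ∀ f ∈ F, (∀ v ∈ Sp y, ∀ τ ∈ T, ∀ u ∈ Sp x, f (v * τ * u) = 0) →
    f g = 0
  have st : ∀ z, (∀ v ∈ Sp y, ∀ τ ∈ T, ∀ u ∈ Sp x, Z (z * (v * τ * u))) → ∀ g, Z g → Z (z * g) :=
    fun z a g b f c d => b _ (hl f c z) fun v e τ e' u e'' => a v e τ e' u e'' f c d
  have sy : ∀ i s g, Z g → Z (y i s * g) := fun i s => st _ fun v a τ b u c f _ d => by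
    simpa only [mul_assoc] using d _ (mul_mem (mem_Sp i s) a) τ b u c
  have sT : ∀ τ ∈ T, ∀ g, Z g → Z (τ * g) := fun σ e => st _ fun v a τ b u c f _ d => by
    obtain ⟨v', a', e'⟩ : ∃ v' ∈ Sp y, σ * v = v' * σ := by
      refine Sp_ind h.ya (P := fun v => ∃ v' ∈ Sp y, σ * v = v' * σ) ⟨1, one_mem _, by simp⟩ ?_ a
      rintro i t g ⟨v', a', e'⟩
      obtain ⟨t', ht⟩ := h.ty σ e i t
      exact ⟨_, mul_mem (mem_Sp i t') a', by rw [← mul_assoc, ht, mul_assoc, e', mul_assoc]⟩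
    have := d _ a' _ (mul_mem e b) u c
    rwa [← mul_assoc v', ← e', mul_assoc σ, mul_assoc σ] at this
  have sx : ∀ i t g, Z g → Z (x i t * g) := fun i t => st _ fun v a τ b u c => by
    rw [mul_assoc]
    revert t
    refine Sp_ind h.ya (P := fun v => ∀ t, Z (x i t * (v * (τ * u)))) (fun t f _ d => ?_)
      (fun j s v ih t => ?_) a
    · obtain ⟨t', ht⟩ := h.tx τ b i t
      have := d 1 (one_mem _) τ b _ (mul_mem (mem_Sp i t') c)
      rwa [← mul_assoc, one_mul, ← ht, mul_assoc, ← one_mul (τ * u)] at this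
    by_cases e : i = j
    · subst e
      intro f c d
      obtain ⟨p, hp⟩ := hp f c i (y i s * v * (τ * u))
      have : p = 0 := p.eq_zero_of_infinite_isRoot ((Set.finite_singleton (-s⁻¹)).infinite_compl.mono
        fun t ht => by
          obtain ⟨s', σ, e, t', e'⟩ := h.sl i t s fun e => ht (by
            have : s ≠ 0 := fun c => by simp [c] at e
            exact (eq_div_of_mul_eq this (eq_neg_of_add_eq_zero_right e)).trans (by
              rw [neg_div, one_div]))
          have := sy i s' _ (sT σ e _ (ih t')) f c d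
          rwa [← mul_assoc σ, ← mul_assoc, ← mul_assoc (y i s'), ← e', mul_assoc, ← mul_assoc (y i s),
            hp] at this)
      rw [hp, this, Polynomial.eval_zero]
    · have := sy j s _ (ih t)
      rwa [← mul_assoc, ← h.cm i j e, mul_assoc, ← mul_assoc (y j s)] at this
  refine (?_ : Z g) f hf h0
  induction hg using closure_induction_left with
  | one => exact fun f _ d => by simpa using d 1 (one_mem _) 1 (one_mem _) 1 (one_mem _)
  | mul_left a ha b _ ih => obtain ⟨i, t, rfl | rfl⟩ := ha; exacts [sx i t b ih, sy i t b ih]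
  | inv_mul_cancel a ha b _ ih =>
    obtain ⟨i, t, rfl | rfl⟩ := ha
    exacts [h.xa i t ▸ sx i _ b ih, h.ya i t ▸ sy i _ b ih]

end Vale.Agent.P011IH
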