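import Vale.Agent.P011IH.Pin
import Vale.Agent.P011UHR3.Rt
import Vale.Agent.P011UH.Pol

/-!
The simply connected group maps to every pinned group with the same Cartan matrix.
-/

set_option autoImplicit false
set_option linter.all false

namespace Vale.Agent.P011IH

open Matrix Finset Vale.Agent.P183CH Vale.Agent.P011UI Vale.Agent.P011U

variable {K : Type} [Field K] {R : RS} {m : ℕ}

theorem cm_pn {G : Type} [Group G] {Γ : RG R K G} (hΓ : Γ.Ok) (hR : R.Ok) {i j : Fin R.r}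
    (ne : i ≠ j) (t u : K) : Commute (Γ.x (R.α i) t) (Γ.x (-R.α j) u) := by
  have m1 := hR.map_mem (RS.sE_mem_W j) (hR.simple i)
  have e1 : R.sE j (R.sE j (R.α i)) = R.α i := by
    rw [← LinearEquiv.mul_apply, hR.sE_mul_self]; rfl
  have p1 : 0 ≤ R.sE j (R.α i) := ((hR.sign _ m1).2).resolve_right fun c => by
    have := c i
    simp [hR.sE_eq, RS.α_self, RS.α_ne ne] at this
  have := P011UHR3.cj hR hΓ (RG.rep_n j) m1 (hR.simple j) (fun t u => by
    have d := RG.X_le (K := ⊥) (fun γ q m _ => by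
      obtain ⟨a, b, a0, b0, e⟩ := q
      have := (hR.sign _ (hR.map_mem (RS.sE_mem_W j) m)).2
      rw [e, map_add, map_nsmul, map_nsmul, e1, hR.sE_α] at this
      rcases this with c | c
      · have := c j
        simp [RS.α_self, RS.α_ne ne.symm] at this
        omega
      · have := c i
        simp [RS.α_self, RS.α_ne ne] at this
        omega) (hΓ.comm _ m1 _ (hR.simple j) p1 (RS.α_nonneg j) t u)
    exact commutatorElement_eq_one_iff_commute.1 (Subgroup.mem_bot.1 d)) t u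
  rwa [e1, hR.sE_α] at this

theorem pn_GG (D : Chev) : Pn D.R (fun i (t : K) => ((GG D K).x (D.R.α i) t).1)
    (fun i t => ((GG D K).x (-D.R.α i) t).1) D.μ := by
  have hR := Chev.R_ok D
  have hΓ := GG_ok (D := D) (k := K)
  have p : ∀ γ ∈ D.R.Φ, ∀ a b, ∃ p : Polynomial K, ∀ t, ((GG D K).x γ t).1.1 a b = p.eval t :=
    fun γ h a b => ⟨∑ e ∈ range D.n, Polynomial.monomial e (D.EE γ e a b : K), fun t =>
      (congrFun₂ (GG_mat.x_eq γ h t) a b).trans (by
        simp [xm, Matrix.sum_apply, Polynomial.eval_finset_sum, mul_comm])⟩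
  have e : ∀ i j, D.R.pr (-D.R.α j) i = -D.R.A j i := fun i j => by
    rw [← RS.pr_α, RS.pr, neg_vecMul]; rfl
  exact ⟨fun i t u => congrArg Subtype.val (hΓ.add _ (hR.simple i) t u),
    fun i t u => congrArg Subtype.val (hΓ.add _ (hR.neg_mem (hR.simple i)) t u),
    fun i => p _ (hR.simple i), fun i => p _ (hR.neg_mem (hR.simple i)),
    fun i j c t s => congrArg Subtype.val (cm_pn hΓ hR c t s).eq,
    fun i t => congrArg Subtype.val (hΓ.sl i t),
    fun i c j t => congrArg Subtype.val (RS.pr_α (R := D.R) j i ▸ hΓ.hx i c _ (hR.simple j) t),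
    fun i c j t => congrArg Subtype.val (e i j ▸ hΓ.hx i c _ (hR.neg_mem (hR.simple j)) t)⟩

variable {x y : Fin R.r → K → GL (Fin m) K} {w : Fin R.r → Fin m → ℤ}

variable (x y) in
/-- the group generated by a pinning -/
def gp : Subgroup (GL (Fin m) K) := Subgroup.closure {g | ∃ i t, g = x i t ∨ g = y i t}

theorem x_gp (i : Fin R.r) (t : K) : x i t ∈ gp x y := Subgroup.subset_closure ⟨i, t, Or.inl rfl⟩

theorem y_gp (i : Fin R.r) (t : K) : y i t ∈ gp x y := Subgroup.subset_closure ⟨i, t, Or.inr rfl⟩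

theorem Pn.h_gp (h : Pn R x y w) (i : Fin R.r) (c : Kˣ) : dgU (w i) c ∈ gp x y :=
  mul_inv_eq_iff_eq_mul.2 (h.sl i c) ▸ mul_mem (mul_mem (mul_mem (x_gp _ _) (y_gp _ _)) (x_gp _ _))
    (inv_mem (mul_mem (mul_mem (x_gp _ _) (y_gp _ _)) (x_gp _ _)))

theorem diag_one {ht : Fin m → ℤ} {d : Fin m → K}
    (h : ∀ S, Up ht S → (bk S (diagonal d)).det = 1) (a : Fin m) : d a = 1 := by
  have h1 := h _ (up_ins ht a)
  rwa [det_bk_diag, prod_insert (by simp), ← det_bk_diag, h _ (up_gt a), mul_one] at h1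

theorem comm_fin [Infinite K] {N : Set (GL (Fin m) K)} (hN : N.Finite) {v : Fin m → ℤ}
    {g : GL (Fin m) K} (h : ∀ c, dgU v c * g * (dgU v c)⁻¹ ∈ N) (c : Kˣ) :
    Commute g (dgU v c) := by
  refine Units.ext (Matrix.ext fun a b => ?_)
  rw [Units.val_mul, Units.val_mul, dg_val, mul_diagonal, diagonal_mul, mul_comm]
  by_cases e : g.1 a b = 0
  · simp [e]
  haveI : Finite (zpowGroupHom (α := Kˣ) (v a - v b)).range := Set.Finite.of_finite_image
    (f := fun z : Kˣ => z * g.1 a b) ((hN.image fun k => k.1 a b).subset (by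
      rintro _ ⟨_, ⟨c, rfl⟩, rfl⟩
      refine ⟨_, h c, ?_⟩
      simp only [← map_inv, Units.val_mul, dg_val, mul_diagonal, diagonal_mul, zpowGroupHom_apply,
        zpow_sub, _root_.inv_zpow']
      rw [mul_right_comm, _root_.zpow_neg])) fun _ _ _ _ f => Units.ext (mul_right_cancel₀ e f)
  have := P011UB.zpow_inj (k := K) (b := 0)
    (a := (v a - v b) * Nat.card (zpowGroupHom (α := Kˣ) (v a - v b)).range) fun t => by
      rw [_root_.zpow_mul, zpow_natCast, zpow_zero]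
      exact congrArg Subtype.val (pow_card_eq_one' (x := (⟨_, t, rfl⟩ :
        (zpowGroupHom (α := Kˣ) (v a - v b)).range)))
  rw [sub_eq_zero.1 ((mul_eq_zero.1 this).resolve_right (Int.natCast_ne_zero.2 Nat.card_pos.ne'))]

theorem hom [Infinite K] {D : Chev} (hD : SC D) {x y : Fin D.R.r → K → GL (Fin m) K}
    {w : Fin D.R.r → Fin m → ℤ} (h : Pn D.R x y w)
    (hz : ∀ g ∈ gp x y, (∀ i c, Commute g (dgU (w i) c)) → ∀ a b, a ≠ b → g.1 a b = 0)
    (hs : ∀ N : Subgroup (GL (Fin m) K), N ≤ gp x y → (∀ g ∈ gp x y, ∀ z ∈ N, g * z * g⁻¹ ∈ N) →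
      (N : Set (GL (Fin m) K)).Finite ∨ ∀ p : MvPolynomial (Fin m × Fin m) K,
        (∀ g ∈ N, MvPolynomial.eval (fun e => g.1 e.1 e.2) p = 0) →
          ∀ g ∈ gp x y, MvPolynomial.eval (fun e => g.1 e.1 e.2) p = 0) :
    ∃ f : D.grp K →* GL (Fin m) K, ∀ i t, f ((GG D K).x (D.R.α i) t) = x i t ∧
      f ((GG D K).x (-D.R.α i) t) = y i t := by
  have hR := Chev.R_ok D
  let H := gr (fun i (t : K) => ((GG D K).x (D.R.α i) t).1)
    (fun i t => ((GG D K).x (-D.R.α i) t).1) x y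
  have h1 : ∀ g : D.grp K, ∃ z, (g.1, z) ∈ H := fun g => by
    have hg := GG_ok.gen.ge (Subgroup.mem_top g)
    induction hg using Subgroup.closure_induction with
    | mem g hg =>
      obtain ⟨i, t, rfl | rfl⟩ := hg
      exacts [⟨_, Subgroup.subset_closure ⟨i, t, Or.inl rfl⟩⟩,
        ⟨_, Subgroup.subset_closure ⟨i, t, Or.inr rfl⟩⟩]
    | one => exact ⟨1, one_mem H⟩
    | mul _ _ _ _ a b => exact a.elim fun _ a => b.elim fun _ b => ⟨_, mul_mem a b⟩
    | inv _ _ a => exact a.elim fun _ a => ⟨_, inv_mem a⟩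
  have h2 : H.map (MonoidHom.snd _ _) = gp x y := by
    refine (MonoidHom.map_closure _ _).trans ?_
    congr 1
    ext g
    constructor
    · rintro ⟨_, ⟨i, t, rfl | rfl⟩, rfl⟩
      exacts [⟨i, t, Or.inl rfl⟩, ⟨i, t, Or.inr rfl⟩]
    · rintro ⟨i, t, rfl | rfl⟩
      exacts [⟨_, ⟨i, t, Or.inl rfl⟩, rfl⟩, ⟨_, ⟨i, t, Or.inr rfl⟩, rfl⟩]
  let N := H.comap (MonoidHom.inr _ _)
  have n1 : N ≤ gp x y := fun g a => h2.le ⟨_, a, rfl⟩
  have n2 : ∀ g ∈ gp x y, ∀ z ∈ N, g * z * g⁻¹ ∈ N := fun g a z b => by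
    obtain ⟨g, c, rfl⟩ := h2.ge a
    have := H.mul_mem (H.mul_mem c b) (H.inv_mem c)
    rwa [show g * MonoidHom.inr _ _ z * g⁻¹ = MonoidHom.inr _ _ (g.2 * z * g.2⁻¹) from
      Prod.ext (by simp) rfl] at this
  have n3 : ∀ g ∈ N, ∀ S, Up (fun a => D.R.wht (w · a)) S → (bk S g.1).det = 1 := fun g a S =>
    minor hR (pn_GG D) h hD a
  have n4 : ∀ g ∈ N, g = 1 := fun g a => by
    have : g.1 = diagonal fun a => g.1 a a := Matrix.ext fun b c => by
      by_cases e : b = c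
      · rw [e, diagonal_apply_eq]
      rw [diagonal_apply_ne _ e]
      refine hz g (n1 a) (fun i t => (hs N n1 n2).elim (fun f => comm_fin f (fun c =>
        n2 _ (h.h_gp i c) g a) t) fun f => ?_) b c e
      have : dgU (w i) t = 1 := Units.ext ((congrArg diagonal (funext (diag_one fun S hS => by
        obtain ⟨p, hp⟩ := mem_PF.1 ((en_PF fun g : GL (Fin m) K => g.1).bk S)
        have := f (p - 1) (fun g a => by rw [map_sub, ← hp, n3 g a S hS, map_one, sub_self]) _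
          (h.h_gp i t)
        rwa [map_sub, ← hp, map_one, sub_eq_zero] at this))).trans diagonal_one)
      exact this ▸ Commute.one_right g
    exact Units.ext (this.trans ((congrArg diagonal (funext (diag_one fun S hS =>
      this ▸ n3 g a S hS))).trans diagonal_one))
  have h3 : ∀ {g z z'}, (g, z) ∈ H → (g, z') ∈ H → z = z' := fun {g z z'} a b =>
    mul_inv_eq_one.1 (n4 _ (show ((1 : GL _ K), z * z'⁻¹) ∈ H from
      mul_inv_cancel g ▸ mul_mem a (inv_mem b)))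
  choose f hf using h1
  exact ⟨MonoidHom.mk' f fun g g' => h3 (hf _) (mul_mem (hf g) (hf g')), fun i t =>
    ⟨h3 (hf _) (Subgroup.subset_closure ⟨i, t, Or.inl rfl⟩),
      h3 (hf _) (Subgroup.subset_closure ⟨i, t, Or.inr rfl⟩)⟩⟩

theorem Pn.pol {D : Chev} (hD : SC D) {x y : Fin D.R.r → K → GL (Fin m) K}
    {w : Fin D.R.r → Fin m → ℤ} (h : Pn D.R x y w) {f : D.grp K →* GL (Fin m) K}
    (hf : ∀ i t, f ((GG D K).x (D.R.α i) t) = x i t ∧ f ((GG D K).x (-D.R.α i) t) = y i t) :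
    (∀ a b, ∃ p : MvPolynomial (Fin D.n × Fin D.n) K, ∀ g : D.grp K,
      (f g).1 a b = MvPolynomial.eval (fun e => g.1.1 e.1 e.2) p) ∧ f.range = gp x y ∧
      ∀ i c, f ((GG D K).h i c) = dgU (w i) c := by
  refine ⟨P011UH.pol_all hD ((Units.coeHom _).comp f) fun i a b => ?_, ?_, fun i c => ?_⟩
  · obtain ⟨p, hp⟩ := h.px i a b
    obtain ⟨q, hq⟩ := h.py i a b
    exact ⟨p, q, fun t => ⟨(congrArg (·.1 a b) (hf i t).1).trans (hp t),
      (congrArg (·.1 a b) (hf i t).2).trans (hq t)⟩⟩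
  · rw [MonoidHom.range_eq_map, ← GG_ok.gen, MonoidHom.map_closure]
    congr 1
    ext g
    constructor
    · rintro ⟨_, ⟨i, t, rfl | rfl⟩, rfl⟩
      exacts [⟨i, t, Or.inl (hf i t).1⟩, ⟨i, t, Or.inr (hf i t).2⟩]
    · rintro ⟨i, t, rfl | rfl⟩
      exacts [⟨_, ⟨i, t, Or.inl rfl⟩, (hf i t).1⟩, ⟨_, ⟨i, t, Or.inr rfl⟩, (hf i t).2⟩]
  · have := congrArg f (GG_ok.sl i c)
    simp only [RG.n, map_mul, (hf _ _).1, (hf _ _).2] at this
    exact mul_right_cancel (this.symm.trans (h.sl i c))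

end Vale.Agent.P011IH
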