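import Vale.Agent.P011IH.Pin
import Vale.Agent.P011UI.Poly
import Vale.Agent.P011UA.A0
import Mathlib.FieldTheory.IsAlgClosed.AlgebraicClosure

/-!
Representations which are separable on the root groups: inversion on the big cell.
-/

set_option autoImplicit false
set_option linter.all false

namespace Vale.Agent.P011IH

open Matrix Finset Vale.Agent.P183CH Vale.Agent.P011UI Vale.Agent.P011U

variable {K G Y J : Type} [Field K] [Group G] [Fintype J] [DecidableEq J] {R : RS} {m : ℕ}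
  {Γ : RG R K G} {B : Subalgebra K (Y → K)}

variable (K) in
/-- polynomial functions without a linear term -/
def PZ : Subalgebra K (K → K) where
  carrier := {f | ∃ p : Polynomial K, p.coeff 1 = 0 ∧ ∀ t, f t = p.eval t}
  mul_mem' := fun ⟨p, a, b⟩ ⟨q, c, d⟩ => ⟨p * q, by
    simp [Polynomial.coeff_mul, Finset.Nat.antidiagonal_succ, a, c], fun t => by simp [b, d]⟩
  add_mem' := fun ⟨p, a, b⟩ ⟨q, c, d⟩ => ⟨p + q, by simp [a, c], fun t => by simp [b, d]⟩
  algebraMap_mem' := fun c => ⟨Polynomial.C c, by simp [Polynomial.coeff_C], fun t => by simp⟩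

theorem PB_comp {f : K → K} (h : f ∈ PB K) {c : Y → K} (hc : c ∈ B) : (fun y => f (c y)) ∈ B := by
  obtain ⟨p, hp⟩ := mem_PB.1 h
  convert sum_mem fun e (_ : e ∈ range (p.natDegree + 1)) =>
    mul_mem (B.algebraMap_mem (p.coeff e)) (pow_mem hc e)
  simp [hp, Polynomial.eval_eq_sum_range]

theorem en_root (hΓ : Γ.Ok) (hR : R.Ok) (ρ : G →* Matrix J J K) {A : Subalgebra K (K → K)}
    (hA : ∀ f ∈ A, ∀ c : K, (fun t => f (c * t)) ∈ A) {γ : R.Q} (hγ : γ ∈ R.Φ) :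
    ∃ i, (En A fun t => ρ (Γ.x (R.α i) t)) ↔ En A fun t => ρ (Γ.x γ t) := by
  obtain ⟨v, hv, i, rfl⟩ := hR.exists_conj hγ
  obtain ⟨g, -, hg⟩ := RG.exists_rep' (Γ := Γ) hv
  obtain ⟨c, hc⟩ := hΓ.rep_conj hR hg (hR.simple i)
  refine ⟨i, fun h a b => ?_, fun h => ?_⟩
  · have := hA _ ((((En.const (ρ g)).mul h).mul (En.const (ρ g⁻¹))) a b) (c⁻¹ : Kˣ)
    simpa only [← map_mul, (hc _).1, Units.mul_inv_cancel_left] using this
  · have := ((En.const (ρ g⁻¹)).mul fun a b => hA _ (h a b) c).mul (En.const (ρ g))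
    simpa only [← (hc _).1, ← map_mul, ← mul_assoc, inv_mul_cancel, one_mul,
      inv_mul_cancel_right] using this

theorem en_all (hΓ : Γ.Ok) (hR : R.Ok) {σ : G →* Matrix J J K}
    (hσ : ∀ i, En (PB K) fun t => σ (Γ.x (R.α i) t)) {γ : R.Q} (hγ : γ ∈ R.Φ) :
    En (PB K) fun t => σ (Γ.x γ t) :=
  (en_root hΓ hR σ (fun _ a c => PB_comp a (mem_PB.2 ⟨Polynomial.C c * Polynomial.X, by simp⟩))
    hγ).elim fun i e => e.1 (hσ i)

theorem en_x (hΓ : Γ.Ok) (hR : R.Ok) {σ : G →* Matrix J J K}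
    (hσ : ∀ i, En (PB K) fun t => σ (Γ.x (R.α i) t)) {γ : R.Q} (hγ : γ ∈ R.Φ) {c : Y → K}
    (hc : c ∈ B) : En B fun y => σ (Γ.x γ (c y)) := fun a b => PB_comp (en_all hΓ hR hσ hγ a b) hc

theorem fl_ent {ht : Fin m → ℤ} {j : ℤ} {M N : Matrix (Fin m) (Fin m) K} (h : Fl ht j (M - 1))
    (h' : Fl ht j (N - 1)) {a b : Fin m} (e : ht a < ht b + (j + j)) :
    (M * N - 1) a b = (M - 1) a b + (N - 1) a b := by
  rw [show M * N - 1 = (M - 1) * (N - 1) + ((M - 1) + (N - 1)) by noncomm_ring, Matrix.add_apply,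
    not_not.1 (mt (h.mul h' a b) e.not_ge), zero_add, Matrix.add_apply]

variable (Γ) in
/-- representations with diagonal torus which are separable on the root groups -/
structure Sr (ρ : G →* Matrix (Fin m) (Fin m) K) (w : Fin R.r → Fin m → ℤ) : Prop where
  ok : Γ.Ok
  root : R.Ok
  hh : ∀ i c, ρ (Γ.h i c) = (dgU (w i) c).1
  px : ∀ i, En (PB K) fun t => ρ (Γ.x (R.α i) t)
  ne : ∀ i, ¬En (PZ K) fun t => ρ (Γ.x (R.α i) t)

namespace Sr

variable [Infinite K] {ρ : G →* Matrix (Fin m) (Fin m) K} {w : Fin R.r → Fin m → ℤ}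
  (h : Sr Γ ρ w) {σ : G →* Matrix J J K} (hσ : ∀ i, En (PB K) fun t => σ (Γ.x (R.α i) t))
  {γ : R.Q}
include h

theorem key (hγ : γ ∈ R.Φ) {a b : Fin m} {p : Polynomial K} (hp : ∀ t, ρ (Γ.x γ t) a b = p.eval t)
    {e : ℕ} (he : p.coeff e ≠ 0) : (w · a) = (w · b) + R.pr ((e : ℤ) • γ) := funext fun i => by
  rw [Pi.add_apply, RS.pr, smul_vecMul]
  refine P011UB.zpow_inj (k := K) fun c => Units.ext (mul_left_cancel₀ he ?_)
  have : p * Polynomial.C ((c ^ w i a : Kˣ) : K) =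
      p.comp (Polynomial.C ((c ^ R.pr γ i : Kˣ) : K) * Polynomial.X) *
        Polynomial.C ((c ^ w i b : Kˣ) : K) := Polynomial.funext fun t => by
    have := congrArg (ρ · a b) (mul_inv_eq_iff_eq_mul.1 (h.ok.hx i c γ hγ t))
    simp only [map_mul, h.hh, dg_val, diagonal_mul, mul_diagonal, hp] at this
    simp only [Polynomial.eval_mul, Polynomial.eval_C, Polynomial.eval_comp, Polynomial.eval_X]
    rw [← this, mul_comm]
  have := congrArg (Polynomial.coeff · e) this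
  simp only [Polynomial.coeff_mul_C, Polynomial.comp_C_mul_X_coeff] at this
  rw [this, _root_.zpow_add, Pi.smul_apply, smul_eq_mul, mul_comm (e : ℤ), _root_.zpow_mul,
    zpow_natCast]
  push_cast
  rw [RS.pr]
  ring

theorem sub (hγ : γ ∈ R.Φ) (t : K) {a b : Fin m} (c : (ρ (Γ.x γ t) - 1) a b ≠ 0) :
    ∃ e : ℕ, 0 < e ∧ (w · a) = (w · b) + R.pr ((e : ℤ) • γ) := by
  obtain ⟨p, hp⟩ := mem_PB.1 (en_all h.ok h.root h.px hγ a b)
  dsimp only at hp
  by_contra! f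
  have : p = Polynomial.C (p.coeff 0) := Polynomial.ext fun e => by
    by_cases c : e = 0
    · simp [c]
    · rw [Polynomial.coeff_C_ne_zero c]
      exact not_not.1 fun d => f e (Nat.pos_of_ne_zero c) (h.key hγ hp d)
  refine c ?_
  rw [Matrix.sub_apply, hp, this, Polynomial.eval_C, Polynomial.coeff_zero_eq_eval_zero, ← hp,
    h.ok.x_zero hγ, map_one, sub_self]

omit h in
theorem gap {a b : Fin m} {e : ℤ} (c : (w · a) = (w · b) + R.pr (e • γ)) :
    R.wht (w · a) = R.wht (w · b) + e * (R.A.det ^ 2 * ∑ i, γ i) := by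
  rw [c, RS.wht_add, RS.wht_pr]
  simp [← mul_sum, mul_left_comm]

theorem pos (hγ : γ ∈ R.Pos) : 0 < R.A.det ^ 2 * ∑ i, γ i :=
  mul_pos (sq_pos_of_ne_zero h.root.det) (h.root.sum_pos hγ.1 hγ.2)

theorem fl (hγ : γ ∈ R.Pos) (t : K) :
    Fl (fun a => R.wht (w · a)) (R.A.det ^ 2 * ∑ i, γ i) (ρ (Γ.x γ t) - 1) := fun a b c => by
  obtain ⟨e, e0, f⟩ := h.sub hγ.1 t c
  have := le_mul_of_one_le_left (h.pos hγ).le (show (1 : ℤ) ≤ e by omega)
  simp only [gap f]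
  omega

theorem low (hγ : γ ∈ R.Pos) (c : R.Q → K) : ∀ l : List R.Q, γ ∉ l → (∀ δ ∈ l, δ ∈ R.Pos) →
    (∀ δ ∈ l, ∑ i, γ i ≤ ∑ i, δ i) →
    Fl (fun a => R.wht (w · a)) (R.A.det ^ 2 * ∑ i, γ i) (ρ (Γ.P l c) - 1) ∧
      ∀ a b, (w · a) = (w · b) + R.pr ((1 : ℤ) • γ) → (ρ (Γ.P l c) - 1) a b = 0
  | [], _, _, _ => by simp [RG.P, Fl]
  | δ :: l, h1, h2, h3 => by
    obtain ⟨i1, i2⟩ := low hγ c l (fun e => h1 (List.mem_cons_of_mem _ e))
      (fun ε e => h2 ε (List.mem_cons_of_mem _ e)) fun ε e => h3 ε (List.mem_cons_of_mem _ e)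
    have p := h.pos hγ
    have hδ := h2 δ List.mem_cons_self
    have q := mul_le_mul_of_nonneg_left (h3 δ List.mem_cons_self) (sq_nonneg R.A.det)
    have i3 := (h.fl hδ (c δ)).mono q
    rw [RG.P_cons, map_mul]
    refine ⟨i3.mul_sub p.le i1, fun a b e => ?_⟩
    have g := gap e
    rw [fl_ent i3 i1 (by simp only [g]; omega), i2 a b e, add_zero]
    by_contra d
    obtain ⟨n, n0, f⟩ := h.sub hδ.1 _ d
    have g' := gap f
    obtain rfl : n = 1 := by
      by_contra k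
      have := mul_le_mul_of_nonneg_right (show (2 : ℤ) ≤ n by omega) (h.pos hδ).le
      omega
    have := h.root.pr_inj (add_left_cancel (e.symm.trans f))
    simp only [Nat.cast_one, one_smul] at this
    exact h1 (this ▸ List.mem_cons_self)

theorem lin (hγ : γ ∈ R.Pos) : ∃ a b, ∃ κ : K, κ ≠ 0 ∧ (w · a) = (w · b) + R.pr ((1 : ℤ) • γ) ∧
    ∀ t, (ρ (Γ.x γ t) - 1) a b = κ * t := by
  obtain ⟨i, hi⟩ := en_root h.ok h.root ρ (A := PZ K) (fun f ⟨p, a, b⟩ c =>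
    ⟨p.comp (Polynomial.C c * Polynomial.X), by simp [Polynomial.comp_C_mul_X_coeff, a],
      fun t => by simp [b]⟩) hγ.1
  obtain ⟨a, ha⟩ := not_forall.1 (mt hi.2 (h.ne i))
  obtain ⟨b, hb⟩ := not_forall.1 ha
  obtain ⟨p, hp⟩ := mem_PB.1 (en_all h.ok h.root h.px hγ.1 a b)
  dsimp only at hp
  have c : p.coeff 1 ≠ 0 := fun c => hb ⟨p, c, hp⟩
  have e := h.key hγ.1 hp c
  have q := h.pos hγ
  have k : ∀ n : ℕ, p.coeff n ≠ 0 → n = 1 := fun n d =>
    Int.natCast_inj.1 (mul_right_cancel₀ q.ne' (add_left_cancel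
      ((gap (h.key hγ.1 hp d)).symm.trans (gap e))))
  refine ⟨a, b, _, c, e, fun t => ?_⟩
  have : p = Polynomial.monomial 1 (p.coeff 1) := Polynomial.ext fun n => by
    rw [Polynomial.coeff_monomial]
    split_ifs with d
    exacts [d ▸ rfl, not_not.1 fun f => d (k n f).symm]
  rw [Matrix.sub_apply, one_apply_ne fun d => by have := gap e; rw [d] at this; omega, hp, this]
  simp

include hσ

theorem en_P (l : List R.Q) (h1 : l.Nodup) (h2 : ∀ γ ∈ l, γ ∈ R.Pos)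
    (h3 : l.Pairwise fun γ δ => ∑ i, γ i ≤ ∑ i, δ i) (c : Y → R.Q → K)
    (e : En B fun y => ρ (Γ.P l (c y))) : En B fun y => σ (Γ.P l (c y)) := by
  induction l with
  | nil => exact En.const (σ 1)
  | cons γ l ih =>
    have hγ := h2 γ List.mem_cons_self
    have h4 := fun δ hδ => h2 δ (List.mem_cons_of_mem γ hδ)
    obtain ⟨a, b, κ, k0, k1, k2⟩ := h.lin hγ
    have hc : (fun y => c y γ) ∈ B := by
      convert mul_mem (B.algebraMap_mem κ⁻¹)
        (sub_mem (e a b) (B.algebraMap_mem ((1 : Matrix _ _ K) a b)))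
      rename_i y
      obtain ⟨i1, i2⟩ := h.low hγ (c y) l (List.nodup_cons.1 h1).1 h4
        fun δ => List.rel_of_pairwise_cons h3
      have g := gap k1
      have p := h.pos hγ
      refine ((inv_mul_eq_iff_eq_mul₀ k0).2 (?_ : (ρ (Γ.P (γ :: l) (c y)) - 1) a b = _)).symm
      rw [RG.P_cons, map_mul, fl_ent (h.fl hγ _) i1 (by simp only [g]; omega), i2 a b k1, k2,
        add_zero]
    simp only [RG.P_cons, map_mul] at e ⊢
    refine (en_x h.ok h.root hσ hγ.1 hc).mul (ih h1.of_cons h4 h3.of_cons ?_)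
    convert (en_x h.ok h.root h.px hγ.1 (neg_mem hc)).mul e
    rw [← mul_assoc, ← map_mul, Pi.neg_apply, h.ok.x_neg hγ.1, inv_mul_cancel, map_one, one_mul]

theorem en_U {u : Y → G} (hu : ∀ y, u y ∈ Γ.U) (e : En B fun y => ρ (u y)) :
    En B fun y => σ (u y) := by
  obtain ⟨l, h1, h2, h3⟩ := exists_sorted (R := R) le_rfl
  choose c hc using fun y => h.ok.exists_P h.root RS.cl_Pos h1 h2 (RG.U_eq (Γ := Γ) ▸ hu y)
  simp only [hc] at e ⊢
  exact h.en_P hσ _ h1 (fun γ => (h2 γ).1) h3 c e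

theorem en_V {v : Y → G} (hv : ∀ y, v y ∈ Γ.V) (e : En B fun y => ρ (v y)) :
    En B fun y => σ (v y) := by
  obtain ⟨w₀, h₀⟩ := h.root.exists_Lg Set.univ
  obtain ⟨g, -, hg⟩ := RG.exists_rep' (Γ := Γ) h₀.1
  have := h.en_U hσ (fun y => RG.UJ_le _ (h.ok.Lg_V h.root hg h₀ (RG.VJ_univ (Γ := Γ) ▸ hv y)))
    (e.conj ρ g g⁻¹)
  simpa only [← map_mul, ← mul_assoc, inv_mul_cancel, one_mul, inv_mul_cancel_right] using
    ((En.const (σ g⁻¹)).mul this).mul (En.const (σ g))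

end Sr

end Vale.Agent.P011IH
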