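import Vale.Agent.P011IH.Hom
import Vale.Agent.P011I.IF

/-!
The isogeny theorem for pinned groups.
-/

set_option autoImplicit false
set_option linter.all false

namespace Vale.Agent.P011IH

open Matrix Finset Vale.Agent.P183CH Vale.Agent.P011UI Vale.Agent.P011U Vale.Agent.P183CH.Chev

variable {K : Type} [Field K] {R : RS} {n : ℕ}

theorem sl_of {G : Type} [Group G] {x y : K → G} {h : Kˣ → G} (hx : ∀ t u, x (t + u) = x t * x u)
    (hy : ∀ t u, y (t + u) = y t * y u)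
    (xy : ∀ t s (u : Kˣ), (u : K) = 1 + t * s → x t * y s = y (s / u) * h u * x (t / u))
    (hh : ∀ c t, h c * x t * (h c)⁻¹ = x ((c ^ (2 : ℤ) : Kˣ) * t)) (t : Kˣ) :
    x t * y (-(t⁻¹ : Kˣ)) * x t = h t * (x 1 * y (-1) * x 1) := by
  have a := xy (t - 1) 1 t (by ring)
  have b := mul_inv_eq_iff_eq_mul.1 (hh t (t⁻¹ : Kˣ))
  have c : x 1 = x (t⁻¹ : Kˣ) * x ((t - 1) / t) := by
    rw [← hx]; congr 1; simp; field_simp; ring
  have d : x t = x (t - 1) * x 1 := by rw [← hx, sub_add_cancel]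
  rw [show ((t ^ (2 : ℤ) : Kˣ) : K) * (t⁻¹ : Kˣ) = t by
    rw [← Units.val_mul, _root_.zpow_two, mul_inv_cancel_right]] at b
  rw [one_div, ← Units.val_inv_eq_inv_val] at a
  rw [← add_inv hy, ← add_inv hy, ← mul_assoc (h t), ← mul_assoc (h t)]
  conv_lhs => rw [mul_assoc]; arg 2; rw [d, eq_mul_inv_of_mul_eq a]
  conv_rhs => arg 1; arg 1; rw [c, ← mul_assoc, b]
  group

theorem conj_of {v : Fin n → ℤ} {P : Matrix (Fin n) (Fin n) (Polynomial K)} {e : ℤ}
    (h : ∀ a b (m : ℕ), (P a b).coeff m ≠ 0 → v a = v b + m * e) (c : Kˣ) (t : K) :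
    (dgU v c).1 * P.map (Polynomial.eval t) =
      P.map (Polynomial.eval ((c ^ e : Kˣ) * t)) * (dgU v c).1 := by
  ext a b
  rw [dg_val, diagonal_mul, mul_diagonal, map_apply, map_apply, Polynomial.eval_eq_sum_range,
    Polynomial.eval_eq_sum_range, mul_sum, sum_mul]
  refine sum_congr rfl fun m _ => ?_
  by_cases f : (P a b).coeff m = 0
  · simp [f]
  rw [h a b m f, _root_.zpow_add, mul_comm (m : ℤ), _root_.zpow_mul, zpow_natCast]
  push_cast
  ring

variable {S : P011I.Pn K n R}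

/-- a one parameter group -/
def un {z : K → Matrix (Fin n) (Fin n) K} (h0 : z 0 = 1) (h : ∀ s t, z (s + t) = z s * z t)
    (t : K) : GL (Fin n) K :=
  ⟨z t, z (-t), by rw [← h, add_neg_cancel, h0], by rw [← h, neg_add_cancel, h0]⟩

/-- the positive elements -/
noncomputable def ux (h : S.Ok) (i : Fin R.r) : K → GL (Fin n) K := un (h.x0 i) (h.xa i)

/-- the negative elements -/
noncomputable def uy (h : S.Ok) (i : Fin R.r) : K → GL (Fin n) K := un (h.y0 i) (h.ya i)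

theorem ux_h (h : S.Ok) (i : Fin R.r) (c : Kˣ) (j : Fin R.r) (t : K) :
    dgU (S.μ i) c * ux h j t * (dgU (S.μ i) c)⁻¹ = ux h j ((c ^ R.A j i : Kˣ) * t) :=
  mul_inv_eq_iff_eq_mul.2 (Units.ext (conj_of (fun a b m e => by
    simpa [P011I.Pn.wt] using congrFun (h.dx j a b m e) i) c t))

theorem uy_h (h : S.Ok) (i : Fin R.r) (c : Kˣ) (j : Fin R.r) (t : K) :
    dgU (S.μ i) c * uy h j t * (dgU (S.μ i) c)⁻¹ = uy h j ((c ^ (-R.A j i) : Kˣ) * t) :=
  mul_inv_eq_iff_eq_mul.2 (Units.ext (conj_of (fun a b m e => by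
    simpa [sub_eq_add_neg, P011I.Pn.wt] using congrFun (h.dy j a b m e) i) c t))

theorem pn_ok (h : S.Ok) : Pn R (ux h) (uy h) S.μ :=
  have a : ∀ i t u, ux h i (t + u) = ux h i t * ux h i u := fun i t u => Units.ext (h.xa i t u)
  have b : ∀ i t u, uy h i (t + u) = uy h i t * uy h i u := fun i t u => Units.ext (h.ya i t u)
  ⟨a, b, fun i a b => ⟨S.X i a b, fun _ => rfl⟩, fun i a b => ⟨S.Y i a b, fun _ => rfl⟩,
    fun i j c t s => Units.ext (h.cm i j c t s),
    fun i => sl_of (a i) (b i) (fun t s u e => Units.ext (h.xy i t s u e))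
      fun c t => h.root.diag i ▸ ux_h h i c i t, ux_h h, uy_h h⟩

theorem gp_eq (h : S.Ok) {ι : Type} (ε : ι ≃ Fin R.r) :
    Subgroup.closure {g | ∃ i t, g = ux h (ε i) t ∨ g = uy h (ε i) t} = S.Gp := by
  refine congrArg _ (Set.ext fun g => ⟨fun ⟨i, t, e⟩ => ⟨ε i, t, e.imp (congrArg _) (congrArg _)⟩,
    fun ⟨i, t, e⟩ => ⟨ε.symm i, t, ?_⟩⟩)
  rw [ε.apply_symm_apply]
  exact e.imp Units.ext Units.ext

theorem pn_eq (h : S.Ok) {D : Chev} (ε : Fin D.r ≃ Fin R.r) (hA : ∀ i j, R.A (ε i) (ε j) = D.A i j) :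
    Pn D.R (fun i => ux h (ε i)) (fun i => uy h (ε i)) fun i => S.μ (ε i) :=
  have p := pn_ok h
  ⟨fun i => p.xa _, fun i => p.ya _, fun i => p.px _, fun i => p.py _,
    fun i j c => p.cm _ _ (ε.injective.ne c), fun i => p.sl _,
    fun i c j t => (p.hx _ c _ t).trans (by rw [hA]),
    fun i c j t => (p.hy _ c _ t).trans (by rw [hA])⟩

theorem hom_row : P011I.HOM := fun F _ _ n R S h D ε hD hA => by
  have e : gp (R := D.R) (fun i => ux h (ε i)) (fun i => uy h (ε i)) = S.Gp := gp_eq h ε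
  obtain ⟨f, hf⟩ := hom hD (pn_eq h ε hA) (fun g a b => h.cen g (e ▸ a) fun p q c => funext fun i =>
    P011UB.zpow_inj (k := F) fun u => by
      have := congrArg (fun g : GL (Fin n) F => g.1 p q) (b (ε.symm i) u).eq
      rw [Units.val_mul, Units.val_mul, dg_val, mul_diagonal, diagonal_mul, mul_comm,
        ε.apply_symm_apply] at this
      exact Units.ext (mul_right_cancel₀ c this).symm) (e ▸ h.fd)
  exact ⟨f, fun g i t => ⟨fun a => by
    rw [show g = (GG D F).x (D.R.α i) t from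
      Subtype.ext (Units.ext (a.trans (congrArg Units.val (GG_e i t)).symm)), (hf i t).1]; rfl,
    fun a => by
    rw [show g = (GG D F).x (-D.R.α i) t from
      Subtype.ext (Units.ext (a.trans (congrArg Units.val (GG_f i t)).symm)), (hf i t).2]; rfl⟩⟩

end Vale.Agent.P011IH
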