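import Vale.Agent.P011IH.Core
import Vale.Agent.P011U.Defs
import Vale.Agent.P011U.Base
import Vale.Agent.P011UB.Root

/-!
Pinned matrix groups and the graph argument.
-/

set_option autoImplicit false
set_option linter.all false

namespace Vale.Agent.P011IH

open Matrix Subgroup Finset Vale.Agent.P183CH Vale.Agent.P011UI

variable {K : Type} [Field K] {R : RS} {n m : ℕ}

variable (K) in
/-- polynomial functions -/
noncomputable def PB : Subalgebra K (K → K) := (Polynomial.aeval (id : K → K)).range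

theorem mem_PB {f : K → K} : f ∈ PB K ↔ ∃ p : Polynomial K, ∀ t, f t = p.eval t :=
  exists_congr fun p => by
    rw [funext_iff]
    refine forall_congr' fun t => ?_
    rw [eq_comm]
    simp [Polynomial.aeval_fn_apply]

/-- pinnings -/
structure Pn (R : RS) (x y : Fin R.r → K → GL (Fin n) K) (w : Fin R.r → Fin n → ℤ) : Prop where
  xa : ∀ i t u, x i (t + u) = x i t * x i u
  ya : ∀ i t u, y i (t + u) = y i t * y i u
  px : ∀ i a b, ∃ p : Polynomial K, ∀ t, (x i t).1 a b = p.eval t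
  py : ∀ i a b, ∃ p : Polynomial K, ∀ t, (y i t).1 a b = p.eval t
  cm : ∀ i j, i ≠ j → ∀ t s, x i t * y j s = y j s * x i t
  sl : ∀ i (t : Kˣ), x i t * y i (-(t⁻¹ : Kˣ)) * x i t =
    dgU (w i) t * (x i 1 * y i (-1) * x i 1)
  hx : ∀ i c j t, dgU (w i) c * x j t * (dgU (w i) c)⁻¹ = x j ((c ^ R.A j i : Kˣ) * t)
  hy : ∀ i c j t, dgU (w i) c * y j t * (dgU (w i) c)⁻¹ = y j ((c ^ (-R.A j i) : Kˣ) * t)

theorem add_zero' {G : Type} [Group G] {z : K → G} (h : ∀ t u, z (t + u) = z t * z u) : z 0 = 1 :=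
  left_eq_mul.1 ((congrArg z (add_zero 0)).symm.trans (h 0 0))

theorem add_inv {G : Type} [Group G] {z : K → G} (h : ∀ t u, z (t + u) = z t * z u) (t : K) :
    (z t)⁻¹ = z (-t) :=
  inv_eq_of_mul_eq_one_right (by rw [← h, add_neg_cancel, add_zero' h])

theorem sl_two {G : Type} [Group G] {x y : K → G} {h : Kˣ →* G} (hx : ∀ t u, x (t + u) = x t * x u)
    (hy : ∀ t u, y (t + u) = y t * y u)
    (hs : ∀ t : Kˣ, x t * y (-(t⁻¹ : Kˣ)) * x t = h t * (x 1 * y (-1) * x 1)) (s c : Kˣ) :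
    x ((c - 1) / s) * y s = y (s / c) * x (-(c / s)) * h c * x (s⁻¹ : Kˣ) := by
  have b := hs (c * s⁻¹)
  rw [map_mul, mul_assoc (h c), ← hs, ← div_eq_mul_inv] at b
  simp only [inv_inv, inv_div, Units.val_div_eq_div_val, ← add_inv hx, ← add_inv hy] at b ⊢
  rw [show ((c : K) - 1) / s = c / s + -(s⁻¹ : Kˣ) by simp; ring, hx, ← add_inv hx,
    ← mul_inv_eq_iff_eq_mul.2 b]
  group

theorem dg_val (v : Fin n → ℤ) (c : Kˣ) :
    (dgU v c).1 = diagonal fun a => ((c ^ v a : Kˣ) : K) := rfl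

theorem tri [Infinite K] {w : Fin R.r → Fin n → ℤ} {z : K → GL (Fin n) K} {γ : R.Q}
    (h0 : z 0 = 1) (hp : ∀ a b, ∃ p : Polynomial K, ∀ t, (z t).1 a b = p.eval t) {j : Fin R.r}
    (hj : R.pr γ j ≠ 0)
    (hz : ∀ i c t, dgU (w i) c * z t * (dgU (w i) c)⁻¹ = z ((c ^ R.pr γ i : Kˣ) * t)) (t : K) :
    (∀ a, (z t).1 a a = 1) ∧ ∀ a b, a ≠ b → (z t).1 a b ≠ 0 → ∃ e : ℕ, 0 < e ∧
      R.wht (w · a) = R.wht (w · b) + R.A.det ^ 2 * (e * ∑ i, γ i) := by
  have key : ∀ a b (p : Polynomial K), (∀ t, (z t).1 a b = p.eval t) → ∀ e, p.coeff e ≠ 0 →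
      ∀ i, w i a = w i b + e * R.pr γ i := fun a b p hp e he i => by
    refine P011UB.zpow_inj (k := K) fun c => Units.ext (mul_left_cancel₀ he ?_)
    have : p * Polynomial.C ((c ^ w i a : Kˣ) : K) =
        p.comp (Polynomial.C ((c ^ R.pr γ i : Kˣ) : K) * Polynomial.X) *
          Polynomial.C ((c ^ w i b : Kˣ) : K) := Polynomial.funext fun t => by
      have := congrArg (fun g : GL (Fin n) K => g.1 a b) (mul_inv_eq_iff_eq_mul.1 (hz i c t))
      rw [Units.val_mul, Units.val_mul, dg_val, diagonal_mul, mul_diagonal, hp, hp] at this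
      simp only [Polynomial.eval_mul, Polynomial.eval_C, Polynomial.eval_comp, Polynomial.eval_X]
      rw [← this, mul_comm]
    have := congrArg (Polynomial.coeff · e) this
    simp only [Polynomial.coeff_mul_C, Polynomial.comp_C_mul_X_coeff] at this
    rw [this, zpow_add, mul_comm (e : ℤ), zpow_mul, zpow_natCast]
    push_cast
    ring
  refine ⟨fun a => ?_, fun a b c d => ?_⟩
  · obtain ⟨p, hp⟩ := hp a a
    have : p = Polynomial.C (p.coeff 0) := Polynomial.ext fun e => by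
      by_cases c : e = 0
      · simp [c]
      · rw [Polynomial.coeff_C_ne_zero c]
        by_contra d
        exact mul_ne_zero (Int.natCast_ne_zero.2 c) hj (left_eq_add.1 (key a a p hp e d j))
    rw [hp, this, Polynomial.eval_C, Polynomial.coeff_zero_eq_eval_zero, ← hp, h0]
    simp
  · obtain ⟨p, hp⟩ := hp a b
    obtain ⟨e, he⟩ : ∃ e, p.coeff e ≠ 0 := by
      by_contra! f
      exact d (by rw [hp, Polynomial.ext (q := 0) f, Polynomial.eval_zero])
    refine ⟨e, Nat.pos_of_ne_zero fun f => he ?_, ?_⟩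
    · rw [f, Polynomial.coeff_zero_eq_eval_zero, ← hp, h0]
      simp [c]
    · rw [show (w · a) = (w · b) + R.pr ((e : ℤ) • γ) from funext fun i => by
        rw [Pi.add_apply, key a b p hp e he i, RS.pr, RS.pr, smul_vecMul]; rfl, RS.wht_add, RS.wht_pr]
      simp [mul_sum]

variable {x y : Fin R.r → K → GL (Fin n) K} {w : Fin R.r → Fin n → ℤ}

theorem Pn.tr_x [Infinite K] (h : Pn R x y w) (hR : R.Ok) (j : Fin R.r) (t : K) :
    Tr (fun a => R.wht (w · a)) (x j t).1 := by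
  obtain ⟨h1, h2⟩ := tri (γ := R.α j) (j := j) (add_zero' (h.xa j)) (h.px j)
    (by simp [RS.pr_α, hR.diag]) (fun i c t => RS.pr_α (R := R) j i ▸ h.hx i c j t) t
  refine ⟨h1, fun a b c d => ?_⟩
  obtain ⟨e, h3, h4⟩ := h2 a b c d
  have := mul_pos (pow_pos (abs_pos.2 hR.det) 2) (Int.natCast_pos.2 h3)
  simp [RS.α] at h4 this
  simp only [h4]
  omega

theorem Pn.tr_y [Infinite K] (h : Pn R x y w) (hR : R.Ok) (j : Fin R.r) (t : K) :
    Tr (-fun a => R.wht (w · a)) (y j t).1 := by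
  have e : ∀ i, R.pr (-R.α j) i = -R.A j i := fun i => by simp [← RS.pr_α, RS.pr, neg_vecMul]
  obtain ⟨h1, h2⟩ := tri (γ := -R.α j) (j := j) (add_zero' (h.ya j)) (h.py j)
    (by simp [e, hR.diag]) (fun i c t => e i ▸ h.hy i c j t) t
  refine ⟨h1, fun a b c d => ?_⟩
  obtain ⟨e, h3, h4⟩ := h2 a b c d
  have := mul_pos (pow_pos (abs_pos.2 hR.det) 2) (Int.natCast_pos.2 h3)
  simp [RS.α] at h4 this
  simp only [Pi.neg_apply, h4]
  omega

theorem Tr.one (ht : Fin n → ℤ) : Tr ht (1 : Matrix (Fin n) (Fin n) K) :=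
  ⟨fun a => one_apply_eq a, fun a b c d => absurd (one_apply_ne c) d⟩

theorem Tr.mul {ht : Fin n → ℤ} {M N : Matrix (Fin n) (Fin n) K} (h : Tr ht M) (h' : Tr ht N) :
    Tr ht (M * N) := by
  have k1 : ∀ {M : Matrix (Fin n) (Fin n) K}, Tr ht M → ∀ a b, M a b ≠ 0 → a = b ∨ ht b < ht a :=
    fun h a b c => (em (a = b)).imp_right fun d => h.2 a b d c
  refine ⟨fun a => ?_, fun a b c d => ?_⟩
  · rw [mul_apply, sum_eq_single a (fun b _ c => ?_) (by simp), h.1, h'.1, one_mul]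
    by_contra d
    have := h.2 a b c.symm (left_ne_zero_of_mul d)
    have := h'.2 b a c (right_ne_zero_of_mul d)
    omega
  · obtain ⟨e, -, f⟩ := exists_ne_zero_of_sum_ne_zero (mul_apply (M := M) ▸ d)
    have g := k1 h a e (left_ne_zero_of_mul f)
    have g' := k1 h' e b (right_ne_zero_of_mul f)
    grind

theorem tr_Sp {ht : Fin n → ℤ} {G : Type} [Group G] {z : Fin R.r → K → G} (ρ : G →* GL (Fin n) K)
    (h : ∀ i t, (z i t)⁻¹ = z i (-t)) (h' : ∀ i t, Tr ht (ρ (z i t)).1) {g : G} (hg : g ∈ Sp z) :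
    Tr ht (ρ g).1 :=
  Sp_ind h (P := fun g => Tr ht (ρ g).1) (by simpa using Tr.one ht)
    (fun i t g a => by simpa using Tr.mul (h' i t) a) hg

/-- characters -/
def ch (s : Fin R.r → Kˣ) (v : Fin R.r → ℤ) : Kˣ := ∏ i, s i ^ v i

theorem ch_add (s : Fin R.r → Kˣ) (v v' : Fin R.r → ℤ) : ch s (v + v') = ch s v * ch s v' := by
  simp [ch, zpow_add, prod_mul_distrib]

theorem ch_zero (s : Fin R.r → Kˣ) : ch s 0 = 1 := by simp [ch]

/-- invariant polynomial functions -/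
structure Df (ht : Fin n → ℤ) (f : Matrix (Fin n) (Fin n) K → K) : Prop where
  pol : ∀ M : K → Matrix (Fin n) (Fin n) K, En (PB K) M → (fun t => f (M t)) ∈ PB K
  inv : ∀ L U M, Tr (-ht) L → Tr ht U → f (L * M * U) = f M
  one : f 1 = 1

theorem df_bk {ht : Fin n → ℤ} {S : Finset (Fin n)} (hS : Up ht S) :
    Df ht fun M : Matrix (Fin n) (Fin n) K => (bk S M).det :=
  ⟨fun _ h => h.bk S, fun _ _ M a b => det_bk hS a b M, by
    rw [← diagonal_one, det_bk_diag]; simp⟩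

theorem Df.mul {ht : Fin n → ℤ} {f g : Matrix (Fin n) (Fin n) K → K} (h : Df ht f) (h' : Df ht g) :
    Df ht fun M => f M * g M :=
  ⟨fun M a => mul_mem (h.pol M a) (h'.pol M a), fun L U M a b => by
    rw [h.inv L U M a b, h'.inv L U M a b], by rw [h.one, h'.one, one_mul]⟩

theorem up_ins (ht : Fin n → ℤ) (a : Fin n) :
    Up ht (insert a (univ.filter fun c => ht a < ht c)) := fun b hb c e => by
  simp only [mem_insert, mem_filter, mem_univ, true_and] at hb ⊢
  rcases hb with rfl | hb <;> omega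

theorem exists_df (ht : Fin n → ℤ) (hw : Submodule.span ℤ (Set.range fun a i => w i a) = ⊤)
    (v : Fin R.r → ℤ) : ∃ f g : Matrix (Fin n) (Fin n) K → K, Df ht f ∧ Df ht g ∧
      ∀ s : Fin R.r → Kˣ, f (diagonal fun a => (ch s (w · a) : K)) =
        (ch s v : K) * g (diagonal fun a => (ch s (w · a) : K)) := by
  have hv := hw.ge (Submodule.mem_top (x := v))
  rw [← Submodule.mem_toAddSubgroup, Submodule.span_int_eq_addSubgroupClosure] at hv
  have o : Df ht fun _ : Matrix (Fin n) (Fin n) K => (1 : K) :=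
    ⟨fun _ _ => one_mem _, fun _ _ _ _ _ => rfl, rfl⟩
  induction hv using AddSubgroup.closure_induction with
  | mem v hv =>
    obtain ⟨a, rfl⟩ := hv
    exact ⟨_, _, df_bk (up_ins ht a), df_bk (up_gt a), fun s => by
      rw [det_bk_diag, det_bk_diag, prod_insert (by simp)]⟩
  | zero => exact ⟨_, _, o, o, fun s => by simp [ch_zero]⟩
  | add v v' _ _ a b =>
    obtain ⟨f, g, a1, a2, a3⟩ := a
    obtain ⟨f', g', b1, b2, b3⟩ := b
    exact ⟨_, _, a1.mul b1, a2.mul b2, fun s => by rw [a3, b3, ch_add, Units.val_mul]; ring⟩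
  | neg v _ a =>
    obtain ⟨f, g, a1, a2, a3⟩ := a
    exact ⟨_, _, a2, a1, fun s => by
      rw [a3, ← mul_assoc, ← Units.val_mul, ← ch_add, neg_add_cancel, ch_zero, Units.val_one,
        one_mul]⟩

variable {x' y' : Fin R.r → K → GL (Fin m) K} {w' : Fin R.r → Fin m → ℤ}

variable (K w w') in
/-- the torus -/
def gt : Subgroup (GL (Fin n) K × GL (Fin m) K) :=
  Subgroup.closure {g | ∃ i c, g = (dgU (w i) c, dgU (w' i) c)}

variable (x y x' y') in
/-- the graph -/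
def gr : Subgroup (GL (Fin n) K × GL (Fin m) K) :=
  Subgroup.closure {g | ∃ i t, g = (x i t, x' i t) ∨ g = (y i t, y' i t)}

theorem gn_of {G ι : Type} [Group G] {x y : ι → K → G} {h : ι → Kˣ →* G} {a b : ι → ι → ℤ}
    (xa : ∀ i t u, x i (t + u) = x i t * x i u) (ya : ∀ i t u, y i (t + u) = y i t * y i u)
    (cm : ∀ i j, i ≠ j → ∀ t s, x i t * y j s = y j s * x i t)
    (sl : ∀ i (t : Kˣ), x i t * y i (-(t⁻¹ : Kˣ)) * x i t = h i t * (x i 1 * y i (-1) * x i 1))
    (hx : ∀ i c j t, h i c * x j t * (h i c)⁻¹ = x j ((c ^ a j i : Kˣ) * t))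
    (hy : ∀ i c j t, h i c * y j t * (h i c)⁻¹ = y j ((c ^ b j i : Kˣ) * t)) :
    Gn x y (Subgroup.closure {g | ∃ i c, g = h i c}) := by
  have k1 : ∀ {z : ι → K → G} {a : ι → ι → ℤ},
      (∀ i c j t, h i c * z j t * (h i c)⁻¹ = z j ((c ^ a j i : Kˣ) * t)) →
      ∀ τ ∈ Subgroup.closure {g | ∃ i c, g = h i c},
      ∀ j t, (∃ t', z j t * τ = τ * z j t') ∧ ∃ t', τ * z j t = z j t' * τ := fun {z a} e τ hτ => by
    induction hτ using Subgroup.closure_induction with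
    | mem g hg =>
      obtain ⟨i, c, rfl⟩ := hg
      exact fun j t => ⟨⟨(c ^ a j i : Kˣ)⁻¹.1 * t, by
        rw [mul_inv_eq_iff_eq_mul.1 (e i c j _), Units.mul_inv_cancel_left]⟩, _,
        mul_inv_eq_iff_eq_mul.1 (e i c j t)⟩
    | one => exact fun j t => ⟨⟨t, by simp⟩, t, by simp⟩
    | mul g g' _ _ p q =>
      intro j t
      obtain ⟨t1, p1⟩ := (p j t).1
      obtain ⟨t2, q1⟩ := (q j t1).1
      obtain ⟨t3, q2⟩ := (q j t).2
      obtain ⟨t4, p2⟩ := (p j t3).2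
      exact ⟨⟨t2, by rw [← mul_assoc, p1, mul_assoc, q1, mul_assoc]⟩,
        t4, by rw [mul_assoc, q2, ← mul_assoc, p2, mul_assoc]⟩
    | inv g _ p =>
      intro j t
      obtain ⟨t1, p1⟩ := (p j t).1
      obtain ⟨t2, p2⟩ := (p j t).2
      exact ⟨⟨t2, by rw [mul_inv_eq_iff_eq_mul, mul_assoc, ← p2, inv_mul_cancel_left]⟩,
        t1, by rw [inv_mul_eq_iff_eq_mul, ← mul_assoc, ← p1, mul_inv_cancel_right]⟩
  refine ⟨fun i => add_inv (xa i), fun i => add_inv (ya i), cm, fun i t s c => ?_,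
    fun τ a i t => (k1 hx τ a i t).1, fun τ a i t => (k1 hy τ a i t).2⟩
  by_cases e : s = 0
  · exact ⟨0, 1, one_mem _, t, by simp [e, add_zero' (ya i)]⟩
  have a := sl_two (xa i) (ya i) (sl i) (Units.mk0 s e) (Units.mk0 _ c)
  have b : h i (Units.mk0 _ c) ∈ Subgroup.closure {g | ∃ i c, g = h i c} :=
    Subgroup.subset_closure ⟨i, _, rfl⟩
  obtain ⟨t', d⟩ := (k1 hx _ b i (-((1 + t * s) / s))).1
  simp only [Units.val_mk0, add_sub_cancel_left, mul_div_cancel_right₀ _ e] at a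
  exact ⟨_, _, b, _, by rw [a, mul_assoc (y i _), d, ← mul_assoc, mul_assoc _ (x i _), ← xa]⟩

theorem gn (h : Pn R x y w) (h' : Pn R x' y' w') :
    Gn (fun i t => (x i t, x' i t)) (fun i t => (y i t, y' i t)) (gt K w w') :=
  gn_of (h := fun i => (dgU (w i)).prod (dgU (w' i)))
    (fun i t u => Prod.ext (h.xa i t u) (h'.xa i t u))
    (fun i t u => Prod.ext (h.ya i t u) (h'.ya i t u))
    (fun i j c t s => Prod.ext (h.cm i j c t s) (h'.cm i j c t s))
    (fun i t => Prod.ext (h.sl i t) (h'.sl i t))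
    (fun i c j t => Prod.ext (h.hx i c j t) (h'.hx i c j t))
    fun i c j t => Prod.ext (h.hy i c j t) (h'.hy i c j t)

theorem ch_mul (i : Fin R.r) (c : Kˣ) (s : Fin R.r → Kˣ) (v : Fin R.r → ℤ) :
    ch (Pi.mulSingle i c * s) v = c ^ v i * ch s v := by
  simp only [ch, Pi.mul_apply, mul_zpow, prod_mul_distrib]
  rw [prod_eq_single i (fun j _ e => by simp [e]) (by simp), Pi.mulSingle_eq_same]

theorem of_gt {τ : GL (Fin n) K × GL (Fin m) K} (b : τ ∈ gt K w w') :
    ∃ s : Fin R.r → Kˣ, τ.1.1 = (diagonal fun a => (ch s (w · a) : K)) ∧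
      τ.2.1 = diagonal fun a => (ch s (w' · a) : K) := by
  have k1 : ∀ i c (τ : GL (Fin n) K × GL (Fin m) K), (∃ s : Fin R.r → Kˣ,
      τ.1.1 = (diagonal fun a => (ch s (w · a) : K)) ∧
        τ.2.1 = diagonal fun a => (ch s (w' · a) : K)) → ∃ s : Fin R.r → Kˣ,
      (dgU (w i) c * τ.1).1 = (diagonal fun a => (ch s (w · a) : K)) ∧
        (dgU (w' i) c * τ.2).1 = diagonal fun a => (ch s (w' · a) : K) := fun i c τ ⟨s, s1, s2⟩ =>
    ⟨Pi.mulSingle i c * s, by
      simp only [Units.val_mul, s1, s2, dg_val, diagonal_mul_diagonal, ch_mul, and_self]⟩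
  induction b using Subgroup.closure_induction_left with
  | one => exact ⟨1, by simp only [ch, Pi.one_apply, _root_.one_zpow, prod_const_one]; simp⟩
  | mul_left _ p _ _ q => obtain ⟨i, c, rfl⟩ := p; exact k1 i c _ q
  | inv_mul_cancel _ p _ _ q =>
    obtain ⟨i, c, rfl⟩ := p
    have := k1 i c⁻¹ _ q
    rwa [map_inv, map_inv] at this

theorem minor [Infinite K] (hR : R.Ok) (h : Pn R x y w) (h' : Pn R x' y' w')
    (hw : Submodule.span ℤ (Set.range fun a i => w i a) = ⊤) {g : GL (Fin m) K}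
    (hg : (1, g) ∈ gr x y x' y') {S : Finset (Fin m)} (hS : Up (fun a => R.wht (w' · a)) S) :
    (bk S g.1).det = 1 := by
  obtain ⟨f₁, f₂, h1, h2, h3⟩ := exists_df (K := K) (fun a => R.wht (w · a)) hw
    (∑ a ∈ S, (w' · a))
  have G := gn h h'
  have := G.dense {f | ∀ z i g, (fun t => f (z * (x i t, x' i t) * g)) ∈ PB K}
    (fun f a z z' i g => by simpa only [mul_assoc] using a (z * z') i g)
    (fun f a i g => by simpa only [one_mul] using mem_PB.1 (a 1 i g))
    (f := fun g => (bk S g.2.1).det * f₂ g.1.1 - f₁ g.1.1) (fun z i g => ?_)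
    (fun v a τ b u c => ?_) hg
  · simpa [h1.one, h2.one, sub_eq_zero] using this
  · have e1 := ((En.const z.1.1).mul fun a b => mem_PB.2 (h.px i a b)).mul (En.const g.1.1)
    have e2 := ((En.const z.2.1).mul fun a b => mem_PB.2 (h'.px i a b)).mul (En.const g.2.1)
    exact sub_mem (mul_mem ((df_bk hS).pol _ e2) (h2.pol _ e1)) (h1.pol _ e1)
  · obtain ⟨s, s1, s2⟩ := of_gt b
    have a1 : Tr _ v.1.1 := tr_Sp (MonoidHom.fst _ _) G.ya (h.tr_y hR) a
    have a2 : Tr _ v.2.1 := tr_Sp (MonoidHom.snd _ _) G.ya (h'.tr_y hR) a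
    have c1 : Tr _ u.1.1 := tr_Sp (MonoidHom.fst _ _) G.xa (h.tr_x hR) c
    have c2 : Tr _ u.2.1 := tr_Sp (MonoidHom.snd _ _) G.xa (h'.tr_x hR) c
    simp only [Prod.fst_mul, Prod.snd_mul, Units.val_mul]
    rw [h1.inv _ _ _ a1 c1, h2.inv _ _ _ a1 c1, det_bk hS a2 c2, s1, s2, h3, det_bk_diag, sub_eq_zero]
    congr 1
    rw [← Units.coe_prod]
    exact congrArg _ (map_prod (MonoidHom.mk' (fun v : Multiplicative _ => ch s v.toAdd)
      fun _ _ => ch_add s _ _) (fun a => Multiplicative.ofAdd (w' · a)) S).symm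

end Vale.Agent.P011IH
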